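import Vale.Agent.P144E.An1.Hol
import Vale.Agent.P144E.An2.Dec
import Vale.Agent.P144E.An3.Shr
import Vale.Agent.P144E.Ge1a.Main
import Vale.Agent.P144U.Cls.Main
import Vale.Agent.P144U.Hol.Main
import Vale.Agent.P144U.ExM.Pair
import Vale.Agent.P144U.ExM.Thin
import Vale.Agent.P144U.ThP.Main
import Vale.Agent.P144U.Dec.Dec
import Vale.Agent.P144U.Dec.Shr

/-!
Angle-uniform corners: the analytic blocks are put together (`clsU`).
-/

namespace Vale.Agent.P144Z

theorem thinU : ThinU := thinU_of exM thinP

theorem decU : DecU := decU_of holU thinU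

theorem shrU : ShrU := shrU_of decU teleH

theorem clsU : ClsU :=
  clsU_of (bdStmtW_of (levS_of flatW) (shrH_of (decH_of holS) teleH flatW)) flatW shrU

end Vale.Agent.P144Z
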