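import Vale.Agent.P144U.Dig.Main
import Vale.Agent.P144U.Far.Far
import Vale.Agent.P144U.Far.Ch
import Vale.Agent.P144U.SmU.Small
import Vale.Agent.P144U.SmU.W
import Vale.Agent.P144U.COr.Main
import Vale.Agent.P144U.WAn.Main
import Vale.Agent.P144U.RgZ.Main
import Vale.Agent.P144U.Uni.Main

/-!
Angle-uniform corners: the geometric blocks are put together (`digU`).
-/

namespace Vale.Agent.P144Z

theorem digU : DigU :=
  digU_of (chStmt_of shiftU) (smallW_of (smallU_of farU)) (uniW_of farU connOr winAnd rghZ) rghZ

end Vale.Agent.P144Z
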